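import Mathlib.Analysis.SpecialFunctions.Log.Basic
import Mathlib.Algebra.BigOperators.Field

/-!
P157: telescoping sums of a concave function along multipliers that grow from a fixed root.
-/

namespace Vale.Agent.P157F.SphVal

open Finset

variable {k : ℕ} {M : ℕ → ℝ}

/-- The multipliers of the variances `A`, starting at `w`. -/
noncomputable def seqW (M : ℕ → ℝ) (w : ℝ) (A : ℕ → ℝ) (i : ℕ) : ℝ :=
  w + ∑ l ∈ range i, M (l + 1) * (A (l + 1) - A l)

/-- The telescoping sum of `φ`, with the root term at the slope `h`. -/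
noncomputable def seqVal (k : ℕ) (M : ℕ → ℝ) (w : ℝ) (φ h : ℝ → ℝ) (A : ℕ → ℝ) : ℝ :=
  ∑ i ∈ range k, (φ (seqW M w A (i + 1)) - φ (seqW M w A i)) / M (i + 1) - φ (seqW M w A k) +
    h w * A 0

/-- Mass-weighted sums below a level. -/
noncomputable def below (M : ℕ → ℝ) (A : ℕ → ℝ) (n : ℕ) : ℝ :=
  ∑ l ∈ range n, (M (l + 1) - M l) * A l

lemma seqW_zero (M : ℕ → ℝ) (w : ℝ) (A : ℕ → ℝ) : seqW M w A 0 = w := by simp [seqW]

lemma seqW_succ (M : ℕ → ℝ) (w : ℝ) (A : ℕ → ℝ) (i : ℕ) :
    seqW M w A (i + 1) = seqW M w A i + M (i + 1) * (A (i + 1) - A i) := by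
  simp only [seqW, sum_range_succ]; ring

lemma seqW_eq (hM0 : M 0 = 0) (w : ℝ) (A : ℕ → ℝ) :
    ∀ i, seqW M w A i = w + M (i + 1) * A i - below M A (i + 1)
  | 0 => by simp [seqW, below, hM0]
  | i + 1 => by
    rw [seqW_succ, seqW_eq hM0 w A i, below, below, sum_range_succ (n := i + 1)]
    ring

lemma le_seqW (hpos : ∀ i < k, 0 < M (i + 1)) {A : ℕ → ℝ} (hA : ∀ i < k, A i ≤ A (i + 1)) (w : ℝ)
    {i : ℕ} (hi : i ≤ k) : w ≤ seqW M w A i :=
  le_add_of_nonneg_right (sum_nonneg fun l hl => by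
    have := mem_range.1 hl
    exact mul_nonneg (hpos l (by omega)).le (sub_nonneg.2 (hA l (by omega))))

/-- Defects at most zero, none at the root, telescope to at most zero. -/
lemma gap_nonpos (hmono : ∀ i < k, M i ≤ M (i + 1)) (hpos : ∀ i < k, 0 < M (i + 1)) (hMk : M k ≤ 1)
    (hM0 : M 0 = 0) {D : ℕ → ℝ} (h0 : D 0 = 0) (hD : ∀ i ≤ k, D i ≤ 0) :
    ∑ i ∈ range k, (D (i + 1) - D i) / M (i + 1) - D k ≤ 0 := by
  have key : ∀ j ≤ k, ∑ i ∈ range j, (D (i + 1) - D i) / M (i + 1) ≤ D j / M j := by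
    intro j hj
    induction j with
    | zero => simp [h0]
    | succ j ih =>
      have h1 := ih (by omega)
      have h2 : D j / M j ≤ D j / M (j + 1) := by
        rcases j with _ | j
        · simp [h0]
        · have hp := hpos j (by omega)
          rw [div_eq_mul_inv, div_eq_mul_inv]
          exact mul_le_mul_of_nonpos_left (inv_anti₀ hp (hmono (j + 1) (by omega))) (hD _ (by omega))
      rw [sum_range_succ, sub_div]
      linarith
  have h := key k le_rfl
  rcases k with _ | k
  · simp [h0]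
  · have hp := hpos k (by omega)
    have : D (k + 1) / M (k + 1) ≤ D (k + 1) := by
      rw [div_le_iff₀ hp]
      nlinarith [mul_nonneg_of_nonpos_of_nonpos (hD (k + 1) le_rfl) (sub_nonpos.2 hMk)]
    linarith

/-- The linearised change of the telescoping sum. -/
lemma lin_eq (hM0 : M 0 = 0) (hMtop : M (k + 1) = 1) (hpos : ∀ i < k, 0 < M (i + 1)) (w : ℝ)
    (A A' H : ℕ → ℝ) :
    ∑ i ∈ range k, (H (i + 1) * (seqW M w A' (i + 1) - seqW M w A (i + 1)) -
        H i * (seqW M w A' i - seqW M w A i)) / M (i + 1) -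
      H k * (seqW M w A' k - seqW M w A k) + H 0 * (A' 0 - A 0) =
    H k * below M (fun l => A' l - A l) (k + 1) +
      ∑ i ∈ range k, (H i - H (i + 1)) / M (i + 1) * below M (fun l => A' l - A l) (i + 1) := by
  set E : ℕ → ℝ := fun l => A' l - A l with hE
  have hd : ∀ i, seqW M w A' i - seqW M w A i = M (i + 1) * E i - below M E (i + 1) := fun i => by
    rw [seqW_eq hM0, seqW_eq hM0]
    simp only [below, hE, mul_sub, sum_sub_distrib]
    ring
  have hd' : ∀ i, seqW M w A' (i + 1) - seqW M w A (i + 1) =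
      seqW M w A' i - seqW M w A i + M (i + 1) * (E (i + 1) - E i) := fun i => by
    rw [seqW_succ, seqW_succ]; simp only [hE]; ring
  have hterm : ∀ i ∈ range k, (H (i + 1) * (seqW M w A' (i + 1) - seqW M w A (i + 1)) -
      H i * (seqW M w A' i - seqW M w A i)) / M (i + 1) =
      (H (i + 1) * E (i + 1) - H i * E i) + (H i - H (i + 1)) / M (i + 1) * below M E (i + 1) :=
    fun i hi => by
      have := (hpos i (mem_range.1 hi)).ne'
      rw [hd', hd i]
      field_simp
      ring
  rw [sum_congr rfl hterm, sum_add_distrib, sum_range_sub fun i => H i * E i, hd k, hMtop]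
  ring

/-- A concave function: the telescoping sum moves by at most the mean distance of the variances. -/
theorem seqVal_le (hM0 : M 0 = 0) (hMtop : M (k + 1) = 1) (hMk : M k ≤ 1)
    (hmono : ∀ i < k, M i ≤ M (i + 1)) (hpos : ∀ i < k, 0 < M (i + 1)) {φ h : ℝ → ℝ} {Lh C w δ : ℝ}
    (hw : 1 ≤ w) (htan : ∀ x y, 1 ≤ x → 1 ≤ y → φ y ≤ φ x + h x * (y - x))
    (hlip : ∀ x y, 1 ≤ x → x ≤ y → |h x - h y| ≤ Lh * (y - x)) (hh : ∀ x, 1 ≤ x → |h x| ≤ 1)
    (hLh : 0 ≤ Lh) {A A' : ℕ → ℝ} (hA : ∀ i < k, A i ≤ A (i + 1)) (hA' : ∀ i < k, A' i ≤ A' (i + 1))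
    (hC : A k - A 0 ≤ C) (hδ : ∀ n ≤ k + 1, |below M (fun l => A' l - A l) n| ≤ δ) :
    seqVal k M w φ h A' - seqVal k M w φ h A ≤ (1 + Lh * C) * δ := by
  have hW : ∀ i ≤ k, 1 ≤ seqW M w A i := fun i hi => hw.trans (le_seqW hpos hA w hi)
  have hW' : ∀ i ≤ k, 1 ≤ seqW M w A' i := fun i hi => hw.trans (le_seqW hpos hA' w hi)
  set H : ℕ → ℝ := fun i => h (seqW M w A i) with hH
  set D : ℕ → ℝ := fun i => φ (seqW M w A' i) - φ (seqW M w A i) -
    H i * (seqW M w A' i - seqW M w A i) with hD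
  have hgap := gap_nonpos hmono hpos hMk hM0 (D := D) (by simp [hD, seqW_zero]) fun i hi => by
    have := htan _ _ (hW i hi) (hW' i hi)
    simp only [hD, hH]
    linarith
  have hlin := lin_eq hM0 hMtop hpos w A A' H
  have hsplit : seqVal k M w φ h A' - seqVal k M w φ h A =
      (∑ i ∈ range k, (D (i + 1) - D i) / M (i + 1) - D k) +
        (∑ i ∈ range k, (H (i + 1) * (seqW M w A' (i + 1) - seqW M w A (i + 1)) -
            H i * (seqW M w A' i - seqW M w A i)) / M (i + 1) -
          H k * (seqW M w A' k - seqW M w A k) + H 0 * (A' 0 - A 0)) := by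
    have e : ∑ i ∈ range k, (φ (seqW M w A' (i + 1)) - φ (seqW M w A' i)) / M (i + 1) -
        ∑ i ∈ range k, (φ (seqW M w A (i + 1)) - φ (seqW M w A i)) / M (i + 1) =
        ∑ i ∈ range k, (D (i + 1) - D i) / M (i + 1) +
          ∑ i ∈ range k, (H (i + 1) * (seqW M w A' (i + 1) - seqW M w A (i + 1)) -
            H i * (seqW M w A' i - seqW M w A i)) / M (i + 1) := by
      rw [← sum_sub_distrib, ← sum_add_distrib]
      exact sum_congr rfl fun i _ => by simp only [hD]; ring
    simp only [seqVal, hD, hH, seqW_zero] at e ⊢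
    linarith
  have hδ0 : 0 ≤ δ := (abs_nonneg _).trans (hδ 0 (Nat.zero_le _))
  have h1 : H k * below M (fun l => A' l - A l) (k + 1) ≤ δ := by
    refine (le_abs_self _).trans ?_
    rw [abs_mul]
    exact (mul_le_of_le_one_left (abs_nonneg _) (hh _ (hW k le_rfl))).trans (hδ _ le_rfl)
  have h2 : ∑ i ∈ range k, (H i - H (i + 1)) / M (i + 1) * below M (fun l => A' l - A l) (i + 1) ≤
      Lh * C * δ := by
    refine (sum_le_sum (g := fun i => Lh * (A (i + 1) - A i) * δ) fun i hi => ?_).trans ?_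
    · have hi' := mem_range.1 hi
      have hp := hpos i hi'
      have hstep := seqW_succ M w A i
      have hle : seqW M w A i ≤ seqW M w A (i + 1) := by
        have := mul_nonneg hp.le (sub_nonneg.2 (hA i hi')); linarith
      have hb : |(H i - H (i + 1)) / M (i + 1)| ≤ Lh * (A (i + 1) - A i) := by
        rw [abs_div, abs_of_pos hp, div_le_iff₀ hp]
        refine (hlip _ _ (hW i hi'.le) hle).trans (le_of_eq ?_)
        rw [hstep]; ring
      refine (le_abs_self _).trans ?_
      rw [abs_mul]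
      exact mul_le_mul hb (hδ _ (by omega)) (abs_nonneg _) ((abs_nonneg _).trans hb)
    · rw [← sum_mul, ← mul_sum, sum_range_sub A]
      gcongr
  rw [hsplit, hlin]
  linarith

/-- The linearisation in a shift of all multipliers of one logarithmic term. -/
lemma log_ratio_shift {W c u : ℝ} (hW : 0 < W) (hc : 0 ≤ c) (hu : 0 < W + u) :
    Real.log (W + c) - Real.log W - u * (1 / W - 1 / (W + c)) ≤
      Real.log (W + c + u) - Real.log (W + u) := by
  have h1 : 0 < W + c := by linarith
  have h2 : 0 < W + c + u := by linarith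
  have h := Real.log_le_sub_one_of_pos (show 0 < (W + c) * (W + u) / (W * (W + c + u)) by positivity)
  rw [Real.log_div (by positivity) (by positivity), Real.log_mul h1.ne' hu.ne',
    Real.log_mul hW.ne' h2.ne'] at h
  have e : (W + c) * (W + u) / (W * (W + c + u)) - 1 = c * u / (W * (W + c + u)) := by
    field_simp
    ring
  have e2 : u * (1 / W - 1 / (W + c)) - c * u / (W * (W + c + u)) =
      c * u ^ 2 / (W * (W + c) * (W + c + u)) := by
    field_simp
    ring
  have : 0 ≤ c * u ^ 2 / (W * (W + c) * (W + c + u)) := by positivity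
  linarith

end Vale.Agent.P157F.SphVal
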